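import Vale.Agent.P235Layer.Layer

/-!
# P235 layering: adding apices, and graphs with a small feedback vertex set
-/

noncomputable section

namespace Vale.Agent.P235Layer

open Finset

variable {V : Type} {G : SimpleGraph V}

theorem reachable_split (e : Sym2 V) {u v : V} (p : G.Walk u v) (hn : p.edges.Nodup)
    (he : e ∈ p.edges) :
    ∃ x y, s(x, y) = e ∧ (G.deleteEdges {e}).Reachable u x ∧ (G.deleteEdges {e}).Reachable y v := by
  induction p with
  | nil => simp at he
  | @cons a b c hab q ih =>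
    rw [SimpleGraph.Walk.edges_cons, List.nodup_cons] at hn
    rw [SimpleGraph.Walk.edges_cons, List.mem_cons] at he
    rcases he with he | he
    · refine ⟨a, b, he.symm, .refl _, ⟨q.toDeleteEdges _ fun f hf hfe => ?_⟩⟩
      rw [Set.mem_singleton_iff] at hfe
      exact hn.1 (he ▸ hfe ▸ hf)
    · obtain ⟨x, y, hxy, h1, h2⟩ := ih hn.2 he
      refine ⟨x, y, hxy, SimpleGraph.Reachable.trans (SimpleGraph.Adj.reachable ?_) h1, h2⟩
      rw [SimpleGraph.deleteEdges_adj, Set.mem_singleton_iff]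
      exact ⟨hab, fun h => hn.1 (h ▸ he)⟩

/-- A tree embeds isometrically, by the cuts of its edges. -/
theorem c1Le_one_of_tree [Fintype V] (hG : G.Connected) (hA : G.IsAcyclic) : C1Le G 1 := by
  classical
  intro ℓ hℓ
  let F : V → Sym2 V → ℝ := fun z e =>
    if e ∈ G.edgeSet ∧ (G.deleteEdges {e}).Reachable z (Quot.out e).1 then ℓ e else 0
  refine embedsL1_of_fintype _ _ F fun u v => ⟨?_, ?_⟩
  · obtain ⟨p, hp⟩ := hG.exists_isPath u v
    refine (pathDist_le hℓ p).trans ?_
    rw [walkLen, ← List.sum_toFinset _ hp.isTrail.edges_nodup]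
    refine (Finset.sum_le_sum fun e he => ?_).trans
      (Finset.sum_le_sum_of_subset_of_nonneg (Finset.subset_univ _) fun e _ _ => abs_nonneg _)
    have hep := List.mem_toFinset.1 he
    have heG := p.edges_subset_edgeSet hep
    obtain ⟨x, y, hxy, h1, h2⟩ := reachable_split e p hp.isTrail.edges_nodup hep
    have hb : ¬ (G.deleteEdges {e}).Reachable x y := by
      have := SimpleGraph.isAcyclic_iff_forall_isBridge.1 hA heG
      subst hxy
      exact SimpleGraph.isBridge_iff.1 this
    have hout : (Quot.out e).1 = x ∨ (Quot.out e).1 = y := by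
      rw [← Sym2.mem_iff, hxy]
      exact Sym2.out_fst_mem e
    rcases hout with h | h
    · have hv : ¬ (G.deleteEdges {e}).Reachable v x := fun hc => hb ((h2.trans hc).symm)
      simp [F, heG, h, h1, hv, le_abs_self]
    · have hu : ¬ (G.deleteEdges {e}).Reachable u y := fun hc => hb (h1.symm.trans hc)
      simp [F, heG, h, h2.symm, hu, le_abs_self]
  · refine l1d_le_pathDist hG F 1 one_pos (fun a b hab => ?_) u v
    rw [one_mul, l1d, Finset.sum_eq_single s(a, b)]
    · have hpos := hℓ _ (G.mem_edgeSet.2 hab)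
      dsimp only [F]
      split_ifs <;> simp [abs_of_pos hpos, hpos.le]
    · intro e _ he
      have h : (G.deleteEdges {e}).Adj a b := by
        rw [SimpleGraph.deleteEdges_adj, Set.mem_singleton_iff]
        exact ⟨hab, fun h => he h.symm⟩
      have hiff : ∀ c, (G.deleteEdges {e}).Reachable a c ↔ (G.deleteEdges {e}).Reachable b c :=
        fun c => ⟨fun hc => h.symm.reachable.trans hc, fun hc => h.reachable.trans hc⟩
      simp [F, hiff]
    · simp

/-- Elimination: if for each i < d no component of the vertices of level at least i holds two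
vertices of level i, and the components of the top level embed, then the graph embeds. -/
theorem c1Le_of_elimination [Fintype V] (hG : G.Connected) (d : ℕ) (lev : V → ℕ)
    (hlev : ∀ v, lev v ≤ d)
    (helim : ∀ i, i < d → ∀ x y : {v // i ≤ lev v}, lev x.1 = i → lev y.1 = i →
      (G.induce {v | i ≤ lev v}).Reachable x y → x = y)
    (X : Finset V) (hXd : ∀ v, v ∈ X ↔ lev v < d) (C : ℝ) (hC : 0 ≤ C)
    (hcomp : ∀ c : (G.induce ((X : Set V)ᶜ)).ConnectedComponent, C1Le c.toSimpleGraph C) :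
    C1Le G (1152 * ((d : ℝ) + C + 1)) := by
  classical
  intro ℓ hℓ
  set H := G.induce ((X : Set V)ᶜ) with hH
  let _ : Fintype H.ConnectedComponent := Fintype.ofFinite _
  let fc : ∀ c : H.ConnectedComponent, c.toSimpleGraph →g G := fun c =>
    (SimpleGraph.Embedding.induce _).toHom.comp c.toSimpleGraph_hom
  let ℓc := fun (c : H.ConnectedComponent) e => ℓ (Sym2.map (fc c) e)
  have hℓc : ∀ c, ∀ e ∈ c.toSimpleGraph.edgeSet, 0 < ℓc c e := fun c e he => by
    refine hℓ _ ?_
    induction e using Sym2.ind with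
    | _ a b => exact G.mem_edgeSet.2 ((fc c).map_adj (c.toSimpleGraph.mem_edgeSet.1 he))
  choose N E hE using fun c => hcomp c (ℓc c) (hℓc c)
  set M : ℝ := ∑ a, ∑ b, pathDist G ℓ a b with hM
  have hd0 : ∀ a b, 0 ≤ pathDist G ℓ a b := pathDist_nonneg hℓ
  have hdM : ∀ a b, pathDist G ℓ a b ≤ M := fun a b =>
    (Finset.single_le_sum (fun c _ => hd0 a c) (Finset.mem_univ b)).trans
      (Finset.single_le_sum (fun c _ => Finset.sum_nonneg fun e _ => hd0 c e) (Finset.mem_univ a))
  let val : V → H.ConnectedComponent → Option (ℕ → ℝ) := fun z c =>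
    if h : ∃ hz : z ∉ X, (H.connectedComponentMk ⟨z, hz⟩) = c then
      some (fun j => if hj : j < N c then E c ⟨⟨z, h.1⟩, h.2⟩ ⟨j, hj⟩ else 0)
    else none
  let Fb : V → (Σ c : H.ConnectedComponent, Option (Fin (N c))) → ℝ := fun z x =>
    (val z x.1).elim 0 fun f => x.2.elim M fun j => f j
  have hFb : ∀ a b, l1d Fb a b = ∑ c, ((|Fb a ⟨c, none⟩ - Fb b ⟨c, none⟩|) +
      ∑ j : Fin (N c), |Fb a ⟨c, some j⟩ - Fb b ⟨c, some j⟩|) := fun a b => by
    rw [l1d, Fintype.sum_sigma]
    exact Finset.sum_congr rfl fun c _ => Fintype.sum_option _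
  have hin : ∀ (z : V) (hz : z ∉ X) (c : H.ConnectedComponent)
      (h : H.connectedComponentMk ⟨z, hz⟩ = c),
      Fb z ⟨c, none⟩ = M ∧ ∀ j, Fb z ⟨c, some j⟩ = E c ⟨⟨z, hz⟩, h⟩ j := fun z hz c h => by
    simp [Fb, val, hz, h]
  have hout : ∀ (z : V) (hz : z ∉ X) (c : H.ConnectedComponent),
      H.connectedComponentMk ⟨z, hz⟩ ≠ c → ∀ o, Fb z ⟨c, o⟩ = 0 := fun z hz c h o => by
    simp [Fb, val, hz, h]
  let ι := Fin (Fintype.card (Σ c : H.ConnectedComponent, Option (Fin (N c))))
  let Fι : V → ι → ℝ := fun z i => Fb z ((Fintype.equivFin _).symm i)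
  have hFι : ∀ a b, l1d Fι a b = l1d Fb a b := fun a b =>
    Equiv.sum_comp (Fintype.equivFin _).symm fun i => |Fb a i - Fb b i|
  have hupper : ∀ a b, a ∉ X → b ∉ X → G.Adj a b → l1d Fι a b ≤ (C + 1) * ℓ s(a, b) := by
    intro a b ha hb hab
    have hab' : H.Adj ⟨a, ha⟩ ⟨b, hb⟩ := hab
    have heq := SimpleGraph.ConnectedComponent.sound hab'.reachable
    set c := H.connectedComponentMk ⟨a, ha⟩ with hc
    have hl := hℓ _ (G.mem_edgeSet.2 hab)
    rw [hFι, hFb, Finset.sum_eq_single c]
    · rw [(hin a ha c rfl).1, (hin b hb c heq.symm).1, sub_self, abs_zero, zero_add]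
      simp only [(hin a ha c rfl).2, (hin b hb c heq.symm).2]
      have h1 := (hE c ⟨⟨a, ha⟩, rfl⟩ ⟨⟨b, hb⟩, heq.symm⟩).2
      have hadj : c.toSimpleGraph.Adj ⟨⟨a, ha⟩, rfl⟩ ⟨⟨b, hb⟩, heq.symm⟩ := hab'
      have h2 := pathDist_le (hℓc c) (SimpleGraph.Walk.cons hadj .nil)
      rw [walkLen_cons, walkLen_nil, add_zero] at h2
      refine h1.trans ((mul_le_mul_of_nonneg_left h2 hC).trans ?_)
      show C * ℓ s(a, b) ≤ (C + 1) * ℓ s(a, b)
      nlinarith
    · intro d _ hd
      simp [hout a ha d hd.symm, hout b hb d (fun h => hd (h.symm.trans heq.symm))]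
    · simp
  have hlower : ∀ a b, a ∉ X → b ∉ X → pathDist G ℓ a b ≤ l1d Fι a b := by
    intro a b ha hb
    set c := H.connectedComponentMk ⟨a, ha⟩ with hc
    rw [hFι, hFb]
    refine le_trans ?_ (Finset.single_le_sum (fun d _ => add_nonneg (abs_nonneg _)
      (Finset.sum_nonneg fun j _ => abs_nonneg _)) (Finset.mem_univ c))
    by_cases h : H.connectedComponentMk ⟨b, hb⟩ = c
    · simp only [(hin a ha c rfl).2, (hin b hb c h).2]
      refine le_trans ?_ (le_add_of_nonneg_left (abs_nonneg _))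
      refine le_trans ?_ (hE c ⟨⟨a, ha⟩, rfl⟩ ⟨⟨b, hb⟩, h⟩).1
      have hne : Nonempty (c.toSimpleGraph.Walk ⟨⟨a, ha⟩, rfl⟩ ⟨⟨b, hb⟩, h⟩) :=
        c.connected_toSimpleGraph _ _
      refine le_csInf (Set.range_nonempty _) ?_
      rintro _ ⟨p, rfl⟩
      exact (pathDist_le hℓ (p.map (fc c))).trans_eq (walkLen_map (fc c) p)
    · refine le_trans ?_ (le_add_of_nonneg_right (Finset.sum_nonneg fun j _ => abs_nonneg _))
      rw [(hin a ha c rfl).1, hout b hb c h, sub_zero]
      exact (hdM a b).trans (le_abs_self _)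
  -- the eliminated levels, and a last layer for the rest
  let layer : V → Fin (d + 1) := fun z => ⟨lev z, Nat.lt_succ_of_le (hlev z)⟩
  let G' : ℕ → V → V → Prop := fun i z w => ∃ (hz : i ≤ lev z) (hw : i ≤ lev w),
    (G.induce {v | i ≤ lev v}).Reachable ⟨z, hz⟩ ⟨w, hw⟩
  let n : Fin (d + 1) → ℕ := fun i =>
    if i = Fin.last _ then Fintype.card (Σ c : H.ConnectedComponent, Option (Fin (N c)))
    else Fintype.card V
  let F : ∀ i, V → Fin (n i) → ℝ := fun i z j =>
    if h : i = Fin.last _ then Fι z (Fin.cast (by simp [n, h]) j) else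
      if G' i z ((Fintype.equivFin V).symm (Fin.cast (by simp [n, h]) j)) then M else 0
  let K : Fin (d + 1) → ℝ := fun i => if i = Fin.last _ then C + 1 else 1
  have hlast : ∀ z, Fin.last _ ≤ layer z → z ∉ X := fun z hz hzX => by
    have h1 : (Fin.last d : ℕ) ≤ lev z := hz
    have h2 := (hXd z).1 hzX
    simp only [Fin.val_last] at h1
    omega
  have hF : ∀ a b, l1d (F (Fin.last _)) a b = l1d Fι a b := fun a b => by
    refine Fintype.sum_equiv (finCongr (by simp [n])) _ _ fun j => ?_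
    simp [F]
  have hF0 : ∀ i, i ≠ Fin.last _ → ∀ a b, l1d (F i) a b =
      ∑ w, |(if G' i a w then M else 0) - (if G' i b w then M else 0)| := fun i hi a b => by
    refine Fintype.sum_equiv ((finCongr (by simp [n, hi])).trans (Fintype.equivFin V).symm) _ _
      fun j => ?_
    simp [F, hi]
  have key := embedsL1_of_layers hG hℓ (d + 1) layer n F K
    (fun i => by dsimp only [K]; split_ifs <;> linarith) (fun i j hij => by
      dsimp only [K]
      split_ifs with hi hj hj <;> try linarith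
      exact absurd (Fin.last_le_iff.1 (hi ▸ hij)) hj) (fun i a b hab ha hb => ?_)
    (fun i x y hx hy => ?_)
  · obtain ⟨m, Φ, hΦ⟩ := key
    refine ⟨m, Φ, fun a b => ⟨(hΦ a b).1, (hΦ a b).2.trans ?_⟩⟩
    refine mul_le_mul_of_nonneg_right ?_ (hd0 a b)
    refine mul_le_mul_of_nonneg_left ?_ (by norm_num)
    rw [Fin.sum_univ_castSucc]
    simp only [K, Fin.castSucc_ne_last, if_false, if_true, Finset.sum_const, Finset.card_univ,
      Fintype.card_fin, nsmul_eq_mul, mul_one]
    linarith
  · rcases eq_or_ne i (Fin.last _) with rfl | hi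
    · rw [hF, show K (Fin.last _) = C + 1 from if_pos rfl]
      exact hupper a b (hlast a ha) (hlast b hb) hab
    · have ha' : (i : ℕ) ≤ lev a := ha
      have hb' : (i : ℕ) ≤ lev b := hb
      have hab' : (G.induce {v | (i : ℕ) ≤ lev v}).Adj ⟨a, ha'⟩ ⟨b, hb'⟩ := hab
      have hiff : ∀ w, G' i a w ↔ G' i b w := fun w =>
        ⟨fun ⟨_, hw, h⟩ => ⟨hb', hw, hab'.symm.reachable.trans h⟩,
          fun ⟨_, hw, h⟩ => ⟨ha', hw, hab'.reachable.trans h⟩⟩
      rw [hF0 i hi]
      simp only [hiff, sub_self, abs_zero, Finset.sum_const_zero]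
      exact mul_nonneg (by dsimp only [K]; split_ifs <;> linarith)
        (hℓ _ (G.mem_edgeSet.2 hab)).le
  · rcases eq_or_ne i (Fin.last _) with rfl | hi
    · rw [hF]
      exact hlower x y (hlast x hx.ge) (hlast y hy.ge)
    · rw [hF0 i hi]
      have hid : (i : ℕ) < d := Fin.val_lt_last hi
      have hxi : lev x = i := congrArg Fin.val hx
      have hyi : lev y = i := congrArg Fin.val hy
      by_cases hxy : x = y
      · subst hxy
        exact (pathDist_self hℓ x).le.trans (Finset.sum_nonneg fun w _ => abs_nonneg _)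
      refine le_trans ?_ (Finset.single_le_sum (fun w _ => abs_nonneg _) (Finset.mem_univ x))
      have h1 : G' i x x := ⟨hxi.ge, hxi.ge, .refl _⟩
      have h2 : ¬ G' i y x := fun ⟨hy', hx', h⟩ =>
        hxy (congrArg Subtype.val (helim i hid ⟨y, hy'⟩ ⟨x, hx'⟩ hyi hxi h)).symm
      rw [if_pos h1, if_neg h2, sub_zero]
      exact (hdM x y).trans (le_abs_self _)

/-- Deleting k vertices: embeddings of the components give an embedding of the graph. -/
theorem c1Le_of_apices [Fintype V] (hG : G.Connected) (X : Finset V) (k : ℕ) (hX : X.card ≤ k)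
    (C : ℝ) (hC : 0 ≤ C)
    (hcomp : ∀ c : (G.induce ((X : Set V)ᶜ)).ConnectedComponent, C1Le c.toSimpleGraph C) :
    C1Le G (1152 * ((k : ℝ) + C + 1)) := by
  classical
  let lev : V → ℕ := fun z => if h : z ∈ X then (X.equivFin ⟨z, h⟩ : ℕ) else k
  have hlt : ∀ z ∈ X, lev z < k := fun z hz => by
    simp only [lev, dif_pos hz]
    exact (X.equivFin ⟨z, hz⟩).2.trans_le hX
  refine c1Le_of_elimination hG k lev (fun v => ?_) (fun i hi x y hx hy _ => ?_) X (fun v => ?_) C hC
    hcomp
  · by_cases h : v ∈ X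
    · exact (hlt v h).le
    · simp [lev, h]
  · have hmem : ∀ z, lev z = i → z ∈ X := fun z hz => by
      by_contra h
      simp [lev, h] at hz
      omega
    have h := hx.trans hy.symm
    simp only [lev, dif_pos (hmem _ hx), dif_pos (hmem _ hy)] at h
    have h2 := X.equivFin.injective (Fin.ext h)
    exact Subtype.ext (Subtype.mk.inj h2)
  · refine ⟨hlt v, fun h => ?_⟩
    by_contra h'
    simp [lev, h'] at h

/-- Bounded elimination distance to forests gives bounded distortion. -/
theorem c1Le_of_elimination_forest [Fintype V] (hG : G.Connected) (d : ℕ) (lev : V → ℕ)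
    (hlev : ∀ v, lev v ≤ d)
    (helim : ∀ i, i < d → ∀ x y : {v // i ≤ lev v}, lev x.1 = i → lev y.1 = i →
      (G.induce {v | i ≤ lev v}).Reachable x y → x = y)
    (X : Finset V) (hXd : ∀ v, v ∈ X ↔ lev v < d)
    (hA : (G.induce ((X : Set V)ᶜ)).IsAcyclic) : C1Le G (1152 * ((d : ℝ) + 2)) := by
  have h := c1Le_of_elimination hG d lev hlev helim X hXd 1 zero_le_one fun c => by
    classical
    let _ : Fintype c := Fintype.ofFinite _
    exact c1Le_one_of_tree c.connected_toSimpleGraph (hA.induce c.supp)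
  intro ℓ hℓ
  obtain ⟨n, F, hF⟩ := h ℓ hℓ
  refine ⟨n, F, fun u v => ⟨(hF u v).1, (hF u v).2.trans_eq ?_⟩⟩
  ring

/-- Graphs with a feedback vertex set of size at most k have distortion O(k + 1). -/
theorem c1Le_of_feedback [Fintype V] (hG : G.Connected) (X : Finset V) (k : ℕ) (hX : X.card ≤ k)
    (hA : (G.induce ((X : Set V)ᶜ)).IsAcyclic) : C1Le G (1152 * ((k : ℝ) + 2)) := by
  have h := c1Le_of_apices hG X k hX 1 zero_le_one fun c => by
    classical
    let _ : Fintype c := Fintype.ofFinite _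
    exact c1Le_one_of_tree c.connected_toSimpleGraph (hA.induce c.supp)
  intro ℓ hℓ
  obtain ⟨n, F, hF⟩ := h ℓ hℓ
  refine ⟨n, F, fun u v => ⟨(hF u v).1, (hF u v).2.trans_eq ?_⟩⟩
  ring

end Vale.Agent.P235Layer
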