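import Vale.Agent.P235Layer.Trunc

/-!
# P235 layering: L1 embeddings of graph metrics from layers

If the vertices of a connected graph are split into layers 0, ..., m - 1 and, for each i, some
map into L1 is K_i-Lipschitz on the edges among layers at least i and does not contract distances
inside layer i, with 1 ≤ K_0 ≤ K_1 ≤ ..., then the graph metric embeds into L1 with distortion at
most 1152 times the sum of the K_i.
-/

noncomputable section

namespace Vale.Agent.P235Layer

open Finset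

variable {V : Type}

/-- The length of a walk. -/
def walkLen {G : SimpleGraph V} (ℓ : Sym2 V → ℝ) {u v : V} (p : G.Walk u v) : ℝ :=
  (p.edges.map ℓ).sum

/-- The shortest path distance: the infimum of the lengths of walks. -/
def pathDist (G : SimpleGraph V) (ℓ : Sym2 V → ℝ) (u v : V) : ℝ :=
  sInf (Set.range fun p : G.Walk u v => walkLen ℓ p)

/-- The pair (V, d) embeds in a finite dimensional L1 space with distortion at most C. -/
def EmbedsL1 (d : V → V → ℝ) (C : ℝ) : Prop :=
  ∃ (n : ℕ) (F : V → Fin n → ℝ), ∀ u v,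
    d u v ≤ ∑ i, |F u i - F v i| ∧ ∑ i, |F u i - F v i| ≤ C * d u v

/-- The L1 distortion of G is at most C for all positive edge lengths. -/
def C1Le (G : SimpleGraph V) (C : ℝ) : Prop :=
  ∀ ℓ : Sym2 V → ℝ, (∀ e ∈ G.edgeSet, 0 < ℓ e) → EmbedsL1 (pathDist G ℓ) C

theorem embedsL1_of_fintype {ι : Type} [Fintype ι] (d : V → V → ℝ) (C : ℝ) (F : V → ι → ℝ)
    (h : ∀ u v, d u v ≤ l1d F u v ∧ l1d F u v ≤ C * d u v) : EmbedsL1 d C := by
  refine ⟨Fintype.card ι, fun z k => F z ((Fintype.equivFin ι).symm k), fun u v => ?_⟩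
  rw [Equiv.sum_comp (Fintype.equivFin ι).symm fun i => |F u i - F v i|]
  exact h u v

variable {G : SimpleGraph V} {ℓ : Sym2 V → ℝ}

theorem walkLen_nil (u : V) : walkLen ℓ (SimpleGraph.Walk.nil : G.Walk u u) = 0 := by
  simp [walkLen]

theorem walkLen_cons {u v w : V} (h : G.Adj u v) (p : G.Walk v w) :
    walkLen ℓ (SimpleGraph.Walk.cons h p) = ℓ s(u, v) + walkLen ℓ p := by
  simp [walkLen]

theorem walkLen_append {u v w : V} (p : G.Walk u v) (q : G.Walk v w) :
    walkLen ℓ (p.append q) = walkLen ℓ p + walkLen ℓ q := by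
  simp [walkLen, SimpleGraph.Walk.edges_append]

theorem walkLen_reverse {u v : V} (p : G.Walk u v) : walkLen ℓ p.reverse = walkLen ℓ p := by
  simp [walkLen, SimpleGraph.Walk.edges_reverse, List.sum_reverse]

theorem walkLen_map {W : Type} {H : SimpleGraph W} (f : H →g G) {u v : W} (p : H.Walk u v) :
    walkLen ℓ (p.map f) = walkLen (fun e => ℓ (e.map f)) p := by
  simp [walkLen, SimpleGraph.Walk.edges_map, Function.comp_def]

variable (hℓ : ∀ e ∈ G.edgeSet, 0 < ℓ e)

include hℓ

theorem walkLen_nonneg {u v : V} (p : G.Walk u v) : 0 ≤ walkLen ℓ p :=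
  List.sum_nonneg fun r hr => by
    obtain ⟨e, he, rfl⟩ := List.mem_map.1 hr
    exact (hℓ e (p.edges_subset_edgeSet he)).le

theorem pathDist_le {u v : V} (p : G.Walk u v) : pathDist G ℓ u v ≤ walkLen ℓ p :=
  csInf_le ⟨0, by rintro _ ⟨q, rfl⟩; exact walkLen_nonneg hℓ q⟩ ⟨p, rfl⟩

theorem pathDist_nonneg (u v : V) : 0 ≤ pathDist G ℓ u v :=
  Real.sInf_nonneg fun r hr => by obtain ⟨q, rfl⟩ := hr; exact walkLen_nonneg hℓ q

theorem pathDist_self (u : V) : pathDist G ℓ u u = 0 :=
  le_antisymm ((pathDist_le hℓ .nil).trans_eq (walkLen_nil u)) (pathDist_nonneg hℓ u u)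

theorem pathDist_triangle (hG : G.Connected) (u v w : V) :
    pathDist G ℓ u w ≤ pathDist G ℓ u v + pathDist G ℓ v w := by
  have : Nonempty (G.Walk u v) := hG u v
  have : Nonempty (G.Walk v w) := hG v w
  have h : ∀ (p : G.Walk u v) (q : G.Walk v w), pathDist G ℓ u w ≤ walkLen ℓ p + walkLen ℓ q :=
    fun p q => (pathDist_le hℓ (p.append q)).trans_eq (walkLen_append p q)
  rw [← sub_le_iff_le_add]
  refine le_csInf (Set.range_nonempty _) ?_
  rintro _ ⟨q, rfl⟩
  rw [sub_le_iff_le_add]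
  rw [← sub_le_iff_le_add']
  refine le_csInf (Set.range_nonempty _) ?_
  rintro _ ⟨q', rfl⟩
  linarith [h q q']

omit hℓ

theorem pathDist_comm (u v : V) : pathDist G ℓ u v = pathDist G ℓ v u := by
  refine congrArg sInf ?_
  ext r
  constructor <;> rintro ⟨p, rfl⟩ <;> exact ⟨p.reverse, walkLen_reverse p⟩

theorem lipschitz_walk {ι : Type} [Fintype ι] (F : V → ι → ℝ) (K : ℝ) (P : V → Prop)
    (h : ∀ a b, G.Adj a b → P a → P b → l1d F a b ≤ K * ℓ s(a, b)) {u v : V} (p : G.Walk u v)
    (hp : ∀ z ∈ p.support, P z) : l1d F u v ≤ K * walkLen ℓ p := by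
  induction p with
  | nil => simp [walkLen_nil, l1d_self]
  | @cons a b c hab q ih =>
    rw [walkLen_cons, mul_add]
    refine (l1d_triangle F a b c).trans (add_le_add ?_ (ih fun z hz => hp z (by simp [hz])))
    exact h a b hab (hp a (by simp)) (hp b (by simp))

include hℓ

omit hℓ in
theorem l1d_le_pathDist (hG : G.Connected) {ι : Type} [Fintype ι] (F : V → ι → ℝ) (K : ℝ)
    (hK : 0 < K) (h : ∀ a b, G.Adj a b → l1d F a b ≤ K * ℓ s(a, b)) (u v : V) :
    l1d F u v ≤ K * pathDist G ℓ u v := by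
  have : Nonempty (G.Walk u v) := hG u v
  rw [← div_le_iff₀' hK]
  refine le_csInf (Set.range_nonempty _) ?_
  rintro _ ⟨p, rfl⟩
  rw [div_le_iff₀' hK]
  exact lipschitz_walk F K (fun _ => True) (fun a b hab _ _ => h a b hab) p fun _ _ => trivial

omit hℓ

/-- The distance to the target set P through vertices satisfying S, capped at M. -/
def reach (G : SimpleGraph V) (ℓ : Sym2 V → ℝ) (M : ℝ) (S P : V → Prop) (u : V) : ℝ :=
  sInf (insert M {r | ∃ (y : V) (p : G.Walk u y),
    P y ∧ (∀ z ∈ p.support, S z) ∧ walkLen ℓ p = r})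

section reach

variable (hℓ : ∀ e ∈ G.edgeSet, 0 < ℓ e) {M : ℝ} (hM : 0 ≤ M) (S P : V → Prop)

include hℓ hM

theorem reach_bddBelow (u : V) : BddBelow (insert M {r | ∃ (y : V) (p : G.Walk u y),
    P y ∧ (∀ z ∈ p.support, S z) ∧ walkLen ℓ p = r}) := by
  refine ⟨0, ?_⟩
  rintro r (rfl | ⟨y, p, -, -, rfl⟩)
  · exact hM
  · exact walkLen_nonneg hℓ p

theorem reach_nonneg (u : V) : 0 ≤ reach G ℓ M S P u := by
  refine le_csInf (Set.insert_nonempty _ _) ?_
  rintro r (rfl | ⟨y, p, -, -, rfl⟩)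
  · exact hM
  · exact walkLen_nonneg hℓ p

theorem reach_le {u y : V} (p : G.Walk u y) (hy : P y) (hp : ∀ z ∈ p.support, S z) :
    reach G ℓ M S P u ≤ walkLen ℓ p :=
  csInf_le (reach_bddBelow hℓ hM S P u) (Set.mem_insert_of_mem _ ⟨y, p, hy, hp, rfl⟩)

theorem reach_eq_zero {u : V} (hS : S u) (hu : P u) : reach G ℓ M S P u = 0 :=
  le_antisymm ((reach_le hℓ hM S P .nil hu (by simpa using hS)).trans_eq (walkLen_nil u))
    (reach_nonneg hℓ hM S P u)

theorem reach_le_add {u v : V} (huv : G.Adj u v) (hu : S u) :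
    reach G ℓ M S P u ≤ ℓ s(u, v) + reach G ℓ M S P v := by
  rw [← sub_le_iff_le_add']
  refine le_csInf (Set.insert_nonempty _ _) ?_
  rintro r (rfl | ⟨y, q, hy, hq, rfl⟩)
  · have := hℓ _ (G.mem_edgeSet.2 huv)
    have h2 : reach G ℓ r S P u ≤ r :=
      csInf_le (reach_bddBelow hℓ hM S P u) (Set.mem_insert _ _)
    linarith
  · have h2 := reach_le hℓ hM S P (SimpleGraph.Walk.cons huv q) hy (by simp [hu]; exact hq)
    rw [walkLen_cons] at h2
    linarith

theorem reach_lipschitz {u v : V} (huv : G.Adj u v) (hu : S u) (hv : S v) :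
    |reach G ℓ M S P u - reach G ℓ M S P v| ≤ ℓ s(u, v) := by
  have h1 := reach_le_add hℓ hM S P huv hu
  have h2 := reach_le_add hℓ hM S P huv.symm hv
  rw [Sym2.eq_swap] at h2
  rw [abs_le]
  constructor <;> linarith

omit hℓ in
theorem exists_walk_of_reach_lt {u : V} {r : ℝ} (h : reach G ℓ M S P u < r) (hr : r ≤ M) :
    ∃ (y : V) (p : G.Walk u y), P y ∧ (∀ z ∈ p.support, S z) ∧ walkLen ℓ p < r := by
  obtain ⟨x, hx, hxr⟩ := exists_lt_of_csInf_lt (Set.insert_nonempty _ _) h
  rcases hx with rfl | ⟨y, p, hy, hp, rfl⟩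
  · exact absurd hxr (not_lt.2 hr)
  · exact ⟨y, p, hy, hp, hxr⟩

end reach

/-- The layering theorem. -/
theorem embedsL1_of_layers [Fintype V] (hG : G.Connected) (hℓ : ∀ e ∈ G.edgeSet, 0 < ℓ e) (m : ℕ)
    (layer : V → Fin m) (n : Fin m → ℕ) (F : ∀ i, V → Fin (n i) → ℝ) (K : Fin m → ℝ)
    (hK : ∀ i, 1 ≤ K i) (hmono : Monotone K)
    (hlip : ∀ i u v, G.Adj u v → i ≤ layer u → i ≤ layer v → l1d (F i) u v ≤ K i * ℓ s(u, v))
    (hlayer : ∀ i x y, layer x = i → layer y = i → pathDist G ℓ x y ≤ l1d (F i) x y) :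
    EmbedsL1 (pathDist G ℓ) (1152 * ∑ i, K i) := by
  classical
  have : Nonempty V := hG.nonempty
  set d := pathDist G ℓ with hd
  set M : ℝ := ∑ a, ∑ b, d a b with hMdef
  have hd0 : ∀ a b, 0 ≤ d a b := pathDist_nonneg hℓ
  have hM : 0 ≤ M := Finset.sum_nonneg fun a _ => Finset.sum_nonneg fun b _ => hd0 a b
  have hdM : ∀ a b, d a b ≤ M := fun a b =>
    (Finset.single_le_sum (fun c _ => hd0 a c) (Finset.mem_univ b)).trans
      (Finset.single_le_sum (fun c _ => Finset.sum_nonneg fun e _ => hd0 c e) (Finset.mem_univ a))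
  let g : Fin m → V → ℝ := fun i => reach G ℓ M (fun z => i ≤ layer z) (fun z => layer z = i)
  let t : Fin m → V → ℝ := fun i z => K i * reach G ℓ M (fun _ => True) (fun z => layer z < i) z
  let F' : ∀ i, V → Option (Fin (n i)) → ℝ := fun i z o => o.elim (K i * g i z) (F i z)
  have hKp : ∀ i, 0 < K i := fun i => one_pos.trans_le (hK i)
  have hF' : ∀ i u v, l1d (F' i) u v = K i * |g i u - g i v| + l1d (F i) u v := fun i u v => by
    rw [l1d, Fintype.sum_option]
    simp only [F', Option.elim, ← mul_sub, abs_mul, abs_of_pos (hKp i)]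
    rfl
  have ht : ∀ i z, 0 ≤ t i z := fun i z =>
    mul_nonneg (hKp i).le (reach_nonneg hℓ hM _ _ z)
  choose η hη Φ hΦ using fun i => exists_trunc (F' i) (t i) (ht i)
  let _ := hη
  have hedge : ∀ i u v, G.Adj u v → l1d (Φ i) u v ≤ 12 * K i * ℓ s(u, v) := by
    intro i u v huv
    have hl : 0 < ℓ s(u, v) := hℓ _ (G.mem_edgeSet.2 huv)
    have hKl : 0 ≤ K i * ℓ s(u, v) := mul_nonneg (hKp i).le hl.le
    have htd : |t i u - t i v| ≤ K i * ℓ s(u, v) := by
      simp only [t, ← mul_sub, abs_mul, abs_of_pos (hKp i)]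
      exact mul_le_mul_of_nonneg_left
        (reach_lipschitz hℓ hM _ _ huv trivial trivial) (hKp i).le
    have h0 : ∀ z, layer z < i → t i z = 0 := fun z hz => by
      simp only [t, reach_eq_zero hℓ hM (fun _ => True) (fun z => layer z < i) trivial hz, mul_zero]
    rcases lt_or_ge (layer v) i with hv | hv
    · have h1 := (hΦ i u v).2.1 (h0 v hv)
      rw [h0 v hv, sub_zero, abs_of_nonneg (ht i u)] at htd
      nlinarith
    rcases lt_or_ge (layer u) i with hu | hu
    · have h1 := (hΦ i v u).2.1 (h0 u hu)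
      rw [h0 u hu, zero_sub, abs_neg, abs_of_nonneg (ht i v)] at htd
      rw [l1d_comm]
      nlinarith
    have h1 := (hΦ i u v).1
    rw [hF'] at h1
    have h2 := mul_le_mul_of_nonneg_left
      (reach_lipschitz hℓ hM (fun z => i ≤ layer z) (fun z => layer z = i) huv hu hv) (hKp i).le
    have h3 := hlip i u v huv hu hv
    linarith
  let Ψ : V → (Σ i, η i) → ℝ := fun z x => 96 * Φ x.1 z x.2
  have hΨ : ∀ u v, l1d Ψ u v = 96 * ∑ i, l1d (Φ i) u v := fun u v => by
    rw [l1d, Fintype.sum_sigma, Finset.mul_sum]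
    refine Finset.sum_congr rfl fun i _ => ?_
    rw [l1d, Finset.mul_sum]
    refine Finset.sum_congr rfl fun j _ => ?_
    simp [Ψ, ← mul_sub, abs_mul]
  refine embedsL1_of_fintype _ _ Ψ fun u v => ⟨?_, ?_⟩
  · rw [hΨ]
    set D := d u v with hD
    rcases (hd0 u v).eq_or_lt with h0 | hDpos
    · rw [← hD] at h0
      rw [← h0]
      exact mul_nonneg (by norm_num) (Finset.sum_nonneg fun i _ => l1d_nonneg _ _ _)
    rw [← hD] at hDpos
    let Z : Finset (Fin m) := Finset.univ.filter fun i => ∃ w, (w = u ∨ w = v) ∧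
      ∃ (z : V) (p : G.Walk w z), layer z = i ∧ walkLen ℓ p * (8 * K i) < D
    have hZ : Z.Nonempty := ⟨layer u, Finset.mem_filter.2 ⟨Finset.mem_univ _, u, Or.inl rfl, u, .nil,
      rfl, by rw [walkLen_nil]; linarith⟩⟩
    -- the first layer, measured at its own scale, that comes close to one of the two vertices
    obtain ⟨i, hi, hmin⟩ : ∃ i ∈ Z, ∀ j ∈ Z, i ≤ j :=
      ⟨Z.min' hZ, Z.min'_mem hZ, fun j hj => Z.min'_le j hj⟩
    have hKi := hKp i
    have h8 : 0 < 8 * K i := by positivity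
    have hfar : ∀ w, (w = u ∨ w = v) → ∀ (z : V) (q : G.Walk w z),
        walkLen ℓ q * (8 * K i) < D → i ≤ layer z := by
      intro w hw z q hq
      by_contra hlt
      rw [not_le] at hlt
      refine absurd (hmin (layer z) (Finset.mem_filter.2
        ⟨Finset.mem_univ _, w, hw, z, q, rfl, lt_of_le_of_lt ?_ hq⟩)) (not_le.2 hlt)
      have := hmono hlt.le
      exact mul_le_mul_of_nonneg_left (by linarith) (walkLen_nonneg hℓ q)
    have hlayer_w : ∀ w, (w = u ∨ w = v) → i ≤ layer w := fun w hw =>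
      hfar w hw w .nil (by rw [walkLen_nil]; linarith)
    have htw : ∀ w, (w = u ∨ w = v) → D / 8 ≤ t i w := by
      intro w hw
      by_contra hlt
      rw [not_le] at hlt
      have h1 : reach G ℓ M (fun _ => True) (fun z => layer z < i) w < D / (8 * K i) := by
        rw [lt_div_iff₀ h8]
        dsimp only [t] at hlt
        linarith
      obtain ⟨z, q, hz, -, hq⟩ := exists_walk_of_reach_lt hM _ _ h1
        ((div_le_self (hd0 u v) (by linarith [hK i])).trans (hdM u v))
      rw [lt_div_iff₀ h8] at hq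
      exact absurd (hfar w hw z q hq) (not_le.2 hz)
    have key : ∀ a b, (a = u ∨ a = v) → (b = u ∨ b = v) → d a b = D →
        (∃ (z : V) (p : G.Walk a z), layer z = i ∧ walkLen ℓ p * (8 * K i) < D) →
        D / 96 ≤ l1d (Φ i) a b := by
      intro a b ha hb hab ⟨x, p, hx, hp⟩
      have hpS : ∀ z ∈ p.support, i ≤ layer z := fun z hz => by
        refine hfar a ha z (p.takeUntil z hz) (lt_of_le_of_lt ?_ hp)
        refine mul_le_mul_of_nonneg_right ?_ h8.le
        conv_rhs => rw [← p.take_spec hz, walkLen_append]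
        linarith [walkLen_nonneg hℓ (p.dropUntil z hz)]
      have hga : g i a ≤ walkLen ℓ p := reach_le hℓ hM _ _ p hx hpS
      have hρ : D / 8 ≤ l1d (F' i) a b := by
        rw [hF']
        by_contra hlt
        rw [not_le] at hlt
        have hF0 := l1d_nonneg (F i) a b
        have h1 : K i * |g i a - g i b| < D / 8 := by linarith
        have h2 : K i * (g i b - g i a) ≤ K i * |g i a - g i b| :=
          mul_le_mul_of_nonneg_left (by rw [abs_sub_comm]; exact le_abs_self _) hKi.le
        have hg : g i b < D / (4 * K i) := by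
          rw [lt_div_iff₀ (by positivity)]
          have := mul_le_mul_of_nonneg_left hga hKi.le
          linarith
        obtain ⟨y, q, hy, hqS, hq⟩ := exists_walk_of_reach_lt hM _ _ hg
          ((div_le_self (hd0 u v) (by linarith [hK i])).trans (hdM u v))
        rw [lt_div_iff₀ (by positivity)] at hq
        have hax := lipschitz_walk (F i) (K i) (fun z => i ≤ layer z) (hlip i) p hpS
        have hby := lipschitz_walk (F i) (K i) (fun z => i ≤ layer z) (hlip i) q hqS
        have hxy := hlayer i x y hx hy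
        have t1 := pathDist_triangle hℓ hG a x y
        have t2 := pathDist_triangle hℓ hG a y b
        have t3 := pathDist_le hℓ p
        have t4 := pathDist_le hℓ q.reverse
        rw [walkLen_reverse] at t4
        have t5 := l1d_triangle (F i) x a y
        have t6 := l1d_triangle (F i) a b y
        rw [l1d_comm (F i) x a] at t5
        have t7 : walkLen ℓ p ≤ K i * walkLen ℓ p :=
          le_mul_of_one_le_left (walkLen_nonneg hℓ p) (hK i)
        have t8 : walkLen ℓ q ≤ K i * walkLen ℓ q :=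
          le_mul_of_one_le_left (walkLen_nonneg hℓ q) (hK i)
        have t9 : 0 ≤ K i * |g i a - g i b| := mul_nonneg hKi.le (abs_nonneg _)
        rw [← hd] at t1 t2 t3 t4
        linarith
      have ht8 := htw a ha
      have h2 := (hΦ i a b).2.2 (lt_of_lt_of_le (by linarith) ht8)
      linarith [le_min ht8 hρ]
    have hfinal : D / 96 ≤ l1d (Φ i) u v := by
      obtain ⟨w, hw, hz⟩ := (Finset.mem_filter.1 hi).2
      rcases hw with rfl | rfl
      · exact key _ _ (Or.inl rfl) (Or.inr rfl) rfl hz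
      · rw [l1d_comm]
        exact key _ _ (Or.inr rfl) (Or.inl rfl) (pathDist_comm _ _) hz
    have hle := Finset.single_le_sum (fun j _ => l1d_nonneg (Φ j) u v) (Finset.mem_univ i)
    linarith
  · rw [hΨ]
    have hsum : 0 < ∑ i, K i := Finset.sum_pos (fun i _ => hKp i) ⟨layer u, Finset.mem_univ _⟩
    have h := l1d_le_pathDist (ℓ := ℓ) hG Ψ (1152 * ∑ i, K i) (by positivity) (fun a b hab => ?_) u v
    · rw [hΨ] at h
      exact h
    · rw [hΨ, Finset.mul_sum, Finset.mul_sum, Finset.sum_mul]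
      exact Finset.sum_le_sum fun i _ => by linarith [hedge i a b hab]

end Vale.Agent.P235Layer
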