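import Mathlib

/-!
# P235 layering: truncated copies of finite L1 pseudometrics

Given a map F of a finite set into finite dimensional L1 and radii t ≥ 0, we build a map whose
distances are bounded by the old ones plus the change of radius, and are at least
min (t u) (old distance) up to constants. It is a random parity map over the cuts of F,
used at the dyadic scales near the radius.
-/

noncomputable section

namespace Vale.Agent.P235Layer

open Finset

/-- The L1 distance between two values of a map into a finite coordinate space. -/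
def l1d {V ι : Type*} [Fintype ι] (F : V → ι → ℝ) (u v : V) : ℝ := ∑ i, |F u i - F v i|

theorem l1d_nonneg {V ι : Type*} [Fintype ι] (F : V → ι → ℝ) (u v : V) : 0 ≤ l1d F u v :=
  Finset.sum_nonneg fun _ _ => abs_nonneg _

theorem l1d_self {V ι : Type*} [Fintype ι] (F : V → ι → ℝ) (u : V) : l1d F u u = 0 := by
  simp [l1d]

theorem l1d_comm {V ι : Type*} [Fintype ι] (F : V → ι → ℝ) (u v : V) : l1d F u v = l1d F v u :=
  Finset.sum_congr rfl fun _ _ => abs_sub_comm _ _

theorem l1d_triangle {V ι : Type*} [Fintype ι] (F : V → ι → ℝ) (u v w : V) :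
    l1d F u w ≤ l1d F u v + l1d F v w := by
  rw [l1d, l1d, l1d, ← Finset.sum_add_distrib]
  exact Finset.sum_le_sum fun i _ => abs_sub_le _ _ _

theorem exists_threshold_weights (s : Finset ℝ) :
    ∃ (w : ℝ → ℝ) (c : ℝ), (∀ a ∈ s, 0 ≤ w a) ∧
      ∀ t ∈ s, ∑ a ∈ s, (if a ≤ t then w a else 0) = t + c := by
  classical
  induction s using Finset.induction_on_max with
  | empty => exact ⟨0, 0, by simp, by simp⟩
  | insert M s hM ih =>
    obtain ⟨w, c, hw, hsum⟩ := ih
    have hMs : M ∉ s := fun h => lt_irrefl M (hM M h)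
    rcases s.eq_empty_or_nonempty with rfl | hne
    · exact ⟨0, -M, by simp, by simp⟩
    obtain ⟨m, hm, hmax⟩ : ∃ m ∈ s, ∀ a ∈ s, a ≤ m :=
      ⟨s.max' hne, s.max'_mem hne, fun a ha => s.le_max' a ha⟩
    refine ⟨Function.update w M (M - m), c, fun a ha => ?_, fun t ht => ?_⟩
    · rcases Finset.mem_insert.1 ha with rfl | ha
      · simp [(hM m hm).le]
      · rw [Function.update_of_ne (hM a ha).ne]
        exact hw a ha
    · have hold : ∀ a ∈ s, Function.update w M (M - m) a = w a := fun a ha =>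
        Function.update_of_ne (hM a ha).ne _ _
      rw [Finset.sum_insert hMs, Finset.sum_congr rfl fun a ha => by rw [hold a ha]]
      rcases Finset.mem_insert.1 ht with rfl | ht
      · have h2 : ∀ a ∈ s, (if a ≤ t then w a else 0) = if a ≤ m then w a else 0 := fun a ha => by
          rw [if_pos (hM a ha).le, if_pos (hmax a ha)]
        rw [Finset.sum_congr rfl h2, hsum m hm, if_pos le_rfl, Function.update_self]
        ring
      · rw [if_neg (not_le.2 (hM t ht)), hsum t ht, zero_add]

theorem exists_cuts {V ι : Type} [Fintype V] [Fintype ι] (F : V → ι → ℝ) :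
    ∃ (κ : Type) (_ : Fintype κ) (w : κ → ℝ) (B : κ → V → Bool), (∀ a, 0 ≤ w a) ∧
      ∀ u v, l1d F u v = ∑ a, if B a u = B a v then 0 else w a := by
  classical
  choose w c hw hsum using fun i => exists_threshold_weights (Finset.univ.image fun z => F z i)
  refine ⟨(i : ι) × {a : ℝ // a ∈ Finset.univ.image fun z => F z i}, by infer_instance,
    fun x => w x.1 x.2.1, fun x z => decide (x.2.1 ≤ F z x.1), fun x => hw _ _ x.2.2, fun u v => ?_⟩
  rw [Fintype.sum_sigma]
  refine Finset.sum_congr rfl fun i _ => ?_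
  dsimp only
  set s := Finset.univ.image fun z => F z i with hs
  rw [Finset.sum_coe_sort s (fun a => if decide (a ≤ F u i) = decide (a ≤ F v i) then 0 else w i a)]
  have hmem : ∀ z, F z i ∈ s := fun z => Finset.mem_image.2 ⟨z, Finset.mem_univ _, rfl⟩
  have key : ∀ p q : ℝ, p ∈ s → q ∈ s → p ≤ q →
      q - p = ∑ a ∈ s, if decide (a ≤ p) = decide (a ≤ q) then 0 else w i a := by
    intro p q hp hq hpq
    rw [show q - p = (∑ a ∈ s, if a ≤ q then w i a else 0) - ∑ a ∈ s, if a ≤ p then w i a else 0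
      by rw [hsum i q hq, hsum i p hp]; ring, ← Finset.sum_sub_distrib]
    refine Finset.sum_congr rfl fun a _ => ?_
    by_cases hap : a ≤ p
    · simp [hap, hap.trans hpq]
    · by_cases haq : a ≤ q <;> simp [hap, haq]
  rcases le_total (F u i) (F v i) with h | h
  · rw [abs_of_nonpos (sub_nonpos.2 h), neg_sub]
    exact key _ _ (hmem u) (hmem v) h
  · rw [abs_of_nonneg (sub_nonneg.2 h), key _ _ (hmem v) (hmem u) h]
    exact Finset.sum_congr rfl fun a _ => by simp [eq_comm]

theorem one_sub_prod_le {κ : Type*} (s : Finset κ) (x : κ → ℝ) (h0 : ∀ a ∈ s, 0 ≤ x a)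
    (h1 : ∀ a ∈ s, x a ≤ 1) : 1 - ∏ a ∈ s, (1 - x a) ≤ ∑ a ∈ s, x a ∧
      (∏ a ∈ s, (1 - x a)) * (1 + ∑ a ∈ s, x a) ≤ 1 ∧
      0 ≤ ∏ a ∈ s, (1 - x a) ∧ ∏ a ∈ s, (1 - x a) ≤ 1 := by
  classical
  induction s using Finset.induction_on with
  | empty => simp
  | insert a s ha ih =>
    obtain ⟨h, h', hP, hP1⟩ := ih (fun b hb => h0 b (Finset.mem_insert_of_mem hb))
      (fun b hb => h1 b (Finset.mem_insert_of_mem hb))
    have a0 := h0 a (Finset.mem_insert_self _ _)
    have a1 := h1 a (Finset.mem_insert_self _ _)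
    have hS : 0 ≤ ∑ b ∈ s, x b :=
      Finset.sum_nonneg fun b hb => h0 b (Finset.mem_insert_of_mem hb)
    rw [Finset.prod_insert ha, Finset.sum_insert ha]
    refine ⟨by nlinarith, ?_, mul_nonneg (by linarith) hP, by nlinarith⟩
    nlinarith [mul_nonneg (mul_nonneg a0 hP) hS, mul_nonneg (mul_self_nonneg (x a)) hP]

/-- The bump of height about 2^j on the radii between 2^(j-1) and 2^(j+1). -/
def bump (j : ℤ) (t : ℝ) : ℝ := max 0 (min (t - (2 : ℝ) ^ (j - 1)) ((2 : ℝ) ^ (j + 1) - t))

theorem bump_nonneg (j : ℤ) (t : ℝ) : 0 ≤ bump j t := le_max_left _ _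

theorem two_zpow_succ (j : ℤ) : (2 : ℝ) ^ (j + 1) = 2 * (2 : ℝ) ^ j := by
  rw [zpow_add_one₀ (two_ne_zero)]
  ring

theorem two_zpow_pred (j : ℤ) : (2 : ℝ) ^ (j - 1) = (2 : ℝ) ^ j / 2 := by
  rw [zpow_sub_one₀ (two_ne_zero)]
  ring

theorem bump_le (j : ℤ) (t : ℝ) : bump j t ≤ (2 : ℝ) ^ j := by
  have h : (0 : ℝ) < (2 : ℝ) ^ j := by positivity
  refine max_le h.le ?_
  rw [two_zpow_succ, two_zpow_pred]
  rcases le_total t ((2 : ℝ) ^ j) with ht | ht
  · exact (min_le_left _ _).trans (by linarith)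
  · exact (min_le_right _ _).trans (by linarith)

theorem bump_zero (j : ℤ) : bump j 0 = 0 :=
  max_eq_left ((min_le_left _ _).trans (by
    have h : (0 : ℝ) < (2 : ℝ) ^ (j - 1) := by positivity
    linarith))

theorem bump_sub_le (j : ℤ) (s t : ℝ) : |bump j s - bump j t| ≤ |s - t| := by
  refine (abs_max_sub_max_le_max _ _ _ _).trans ?_
  rw [sub_self, abs_zero]
  refine max_le (abs_nonneg _) ((abs_min_sub_min_le_max _ _ _ _).trans (max_le ?_ ?_))
  · rw [sub_sub_sub_cancel_right]
  · rw [sub_sub_sub_cancel_left, abs_sub_comm]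

/-- The two scales of a radius. -/
def scales (t : ℝ) : Finset ℤ := {Int.log 2 t, Int.log 2 t + 1}

theorem scales_card (t : ℝ) : (scales t).card ≤ 2 := Finset.card_le_two

theorem mem_scales_of_bump_ne {j : ℤ} {t : ℝ} (h : bump j t ≠ 0) : j ∈ scales t := by
  have hp : 0 < min (t - (2 : ℝ) ^ (j - 1)) ((2 : ℝ) ^ (j + 1) - t) := by
    by_contra hc
    exact h (max_eq_left (not_lt.1 hc))
  rw [lt_min_iff, sub_pos, sub_pos] at hp
  have ht : 0 < t := lt_trans (by positivity) hp.1
  have h1 : (2 : ℝ) ^ Int.log 2 t ≤ t := by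
    exact_mod_cast Int.zpow_log_le_self (b := 2) (by norm_num) ht
  have h2 : t < (2 : ℝ) ^ (Int.log 2 t + 1) := by
    exact_mod_cast Int.lt_zpow_succ_log_self (b := 2) (by norm_num) t
  have h3 : j - 1 < Int.log 2 t + 1 :=
    (zpow_lt_zpow_iff_right₀ (one_lt_two : (1 : ℝ) < 2)).1 (hp.1.trans h2)
  have h4 : Int.log 2 t < j + 1 :=
    (zpow_lt_zpow_iff_right₀ (one_lt_two : (1 : ℝ) < 2)).1 (h1.trans_lt hp.2)
  simp only [scales, Finset.mem_insert, Finset.mem_singleton]
  omega

theorem exists_large_bump {t : ℝ} (ht : 0 < t) :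
    ∃ j ∈ scales t, t / 4 ≤ bump j t ∧ (2 : ℝ) ^ j ≤ 2 * t := by
  set L := Int.log 2 t with hL
  have h1 : (2 : ℝ) ^ L ≤ t := by
    exact_mod_cast Int.zpow_log_le_self (b := 2) (by norm_num) ht
  have h2 : t < (2 : ℝ) ^ (L + 1) := by
    exact_mod_cast Int.lt_zpow_succ_log_self (b := 2) (by norm_num) t
  have hp : (0 : ℝ) < (2 : ℝ) ^ L := by positivity
  rw [two_zpow_succ] at h2
  rcases le_total (3 * (2 : ℝ) ^ L / 2) t with hc | hc
  · refine ⟨L + 1, by simp [scales, hL], le_max_of_le_right (le_min ?_ ?_), ?_⟩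
    · rw [add_sub_cancel_right]; linarith
    · rw [two_zpow_succ, two_zpow_succ]; linarith
    · rw [two_zpow_succ]; linarith
  · refine ⟨L, by simp [scales, hL], le_max_of_le_right (le_min ?_ ?_), by linarith⟩
    · rw [two_zpow_pred]; linarith
    · rw [two_zpow_succ]; linarith

theorem abs_signed_sub {a b : ℝ} (ha : 0 ≤ a) (hb : 0 ≤ b) {x y : ℝ} (hx : x = 1 ∨ x = -1)
    (hy : y = 1 ∨ y = -1) :
    |a * x - b * y| = |a - b| + min a b - min a b * (x * y) := by
  rcases hx with rfl | rfl <;> rcases hy with rfl | rfl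
  · simp
  · rw [mul_one, mul_neg_one, sub_neg_eq_add, abs_of_nonneg (add_nonneg ha hb)]
    rcases le_total a b with h | h
    · rw [min_eq_left h, abs_of_nonpos (sub_nonpos.2 h)]; ring
    · rw [min_eq_right h, abs_of_nonneg (sub_nonneg.2 h)]; ring
  · rw [mul_one, mul_neg_one, show -a - b = -(a + b) by ring, abs_neg,
      abs_of_nonneg (add_nonneg ha hb)]
    rcases le_total a b with h | h
    · rw [min_eq_left h, abs_of_nonpos (sub_nonpos.2 h)]; ring
    · rw [min_eq_right h, abs_of_nonneg (sub_nonneg.2 h)]; ring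
  · rw [mul_neg_one, mul_neg_one, show -a - -b = -(a - b) by ring, abs_neg]
    ring

theorem exists_trunc {V ι : Type} [Fintype V] [Fintype ι] (F : V → ι → ℝ) (t : V → ℝ)
    (ht : ∀ z, 0 ≤ t z) :
    ∃ (η : Type) (_ : Fintype η) (Φ : V → η → ℝ), ∀ u v,
      l1d Φ u v ≤ 4 * (|t u - t v| + l1d F u v) ∧ (t v = 0 → l1d Φ u v ≤ 4 * t u) ∧
      (0 < t u → min (t u) (l1d F u v) / 12 ≤ l1d Φ u v) := by
  classical
  obtain ⟨κ, _, w, B, hw, hcut⟩ := exists_cuts F
  let J : Finset ℤ := Finset.univ.biUnion fun z => scales (t z)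
  let q : ℤ → κ → ℝ := fun j a => min 1 (w a / (2 : ℝ) ^ j) / 2
  let P : ℤ → Finset κ → ℝ := fun j T => (∏ a ∈ T, q j a) * ∏ a ∈ Finset.univ \ T, (1 - q j a)
  let sg : κ → V → ℝ := fun a z => if B a z then 1 else -1
  let σ : Finset κ → V → ℝ := fun T z => ∏ a ∈ T, sg a z
  let Φ : V → (↥J × Finset κ) → ℝ := fun z x => P x.1 x.2 * (bump x.1 (t z) * σ x.2 z)
  refine ⟨↥J × Finset κ, inferInstance, Φ, fun u v => ?_⟩
  let x : ℤ → κ → ℝ := fun j a => if B a u = B a v then 0 else min 1 (w a / (2 : ℝ) ^ j)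
  let Z : ℤ → ℝ := fun j => 1 - ∏ a, (1 - x j a)
  let term : ℤ → ℝ := fun j => |bump j (t u) - bump j (t v)| + min (bump j (t u)) (bump j (t v)) * Z j
  have hq0 : ∀ j a, 0 ≤ q j a ∧ q j a ≤ 1 := fun j a => by
    have h1 : 0 ≤ w a / (2 : ℝ) ^ j := div_nonneg (hw a) (by positivity)
    have h2 : min 1 (w a / (2 : ℝ) ^ j) ≤ 1 := min_le_left _ _
    have h3 : 0 ≤ min 1 (w a / (2 : ℝ) ^ j) := le_min zero_le_one h1
    constructor <;> dsimp only [q] <;> linarith
  have hP0 : ∀ j T, 0 ≤ P j T := fun j T => mul_nonneg (Finset.prod_nonneg fun a _ => (hq0 j a).1)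
    (Finset.prod_nonneg fun a _ => by linarith [(hq0 j a).2])
  have hσ : ∀ T z, σ T z = 1 ∨ σ T z = -1 := fun T z => by
    refine Finset.prod_induction _ (fun r : ℝ => r = 1 ∨ r = -1) ?_ (Or.inl rfl) ?_
    · rintro a b (rfl | rfl) (rfl | rfl) <;> norm_num
    · intro a _; by_cases h : B a z = true <;> simp [sg, h]
  have hsum1 : ∀ j, ∑ T, P j T = 1 := fun j => by
    have := Finset.prod_add (q j) (fun a => 1 - q j a) Finset.univ
    simp only [add_sub_cancel, Finset.prod_const_one, Finset.powerset_univ] at this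
    exact this.symm
  have hcorr : ∀ j, ∑ T, P j T * (σ T u * σ T v) = ∏ a, (1 - x j a) := fun j => by
    have h := Finset.prod_add (fun a => q j a * (sg a u * sg a v)) (fun a => 1 - q j a) Finset.univ
    rw [Finset.powerset_univ] at h
    have hL : ∀ a, q j a * (sg a u * sg a v) + (1 - q j a) = 1 - x j a := fun a => by
      by_cases hu : B a u = true <;> by_cases hv : B a v = true <;>
        simp [q, sg, x, hu, hv] <;> ring
    rw [← Finset.prod_congr rfl fun a _ => hL a, h]
    refine Finset.sum_congr rfl fun T _ => ?_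
    simp only [P, σ, Finset.prod_mul_distrib]
    ring
  have hΦ : l1d Φ u v = ∑ j ∈ J, term j := by
    rw [l1d, Fintype.sum_prod_type, ← Finset.sum_coe_sort J term]
    refine Finset.sum_congr rfl fun j _ => ?_
    dsimp only [Φ]
    simp only [← mul_sub, abs_mul, abs_of_nonneg (hP0 _ _),
      abs_signed_sub (bump_nonneg _ _) (bump_nonneg _ _) (hσ _ u) (hσ _ v)]
    simp only [mul_sub, Finset.sum_sub_distrib, mul_comm (min _ _) (σ _ u * σ _ v), ← mul_assoc,
      ← Finset.sum_mul]
    rw [hsum1]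
    simp only [mul_assoc] at *
    rw [hcorr]
    dsimp only [term, Z]
    ring
  have hx0 : ∀ j a, 0 ≤ x j a ∧ x j a ≤ 1 := fun j a => by
    dsimp only [x]
    split_ifs
    · simp
    · exact ⟨le_min zero_le_one (div_nonneg (hw a) (by positivity)), min_le_left _ _⟩
  have hZ : ∀ j, 0 ≤ Z j ∧ Z j ≤ 1 ∧ Z j ≤ l1d F u v / (2 : ℝ) ^ j := fun j => by
    obtain ⟨h1, -, h3, h4⟩ := one_sub_prod_le Finset.univ (x j) (fun a _ => (hx0 j a).1)
      (fun a _ => (hx0 j a).2)
    refine ⟨by dsimp only [Z]; linarith, by dsimp only [Z]; linarith, h1.trans ?_⟩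
    rw [hcut, Finset.sum_div]
    refine Finset.sum_le_sum fun a _ => ?_
    dsimp only [x]
    split_ifs
    · simp
    · exact min_le_right _ _
  have hterm0 : ∀ j, 0 ≤ term j := fun j =>
    add_nonneg (abs_nonneg _) (mul_nonneg (le_min (bump_nonneg _ _) (bump_nonneg _ _)) (hZ j).1)
  have hterm : ∀ j, term j ≤ |t u - t v| + l1d F u v := fun j => by
    refine add_le_add (bump_sub_le _ _ _) ?_
    calc min (bump j (t u)) (bump j (t v)) * Z j
        ≤ (2 : ℝ) ^ j * (l1d F u v / (2 : ℝ) ^ j) :=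
          mul_le_mul ((min_le_left _ _).trans (bump_le _ _)) (hZ j).2.2 (hZ j).1 (by positivity)
      _ = l1d F u v := mul_div_cancel₀ _ (by positivity)
  refine ⟨?_, fun hv => ?_, fun hu => ?_⟩
  · rw [hΦ]
    calc ∑ j ∈ J, term j = ∑ j ∈ J with j ∈ scales (t u) ∪ scales (t v), term j := by
          refine (Finset.sum_filter_of_ne fun j _ hj => ?_).symm
          by_contra hc
          simp only [Finset.mem_union, not_or] at hc
          have h1 : bump j (t u) = 0 := not_not.1 fun h => hc.1 (mem_scales_of_bump_ne h)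
          have h2 : bump j (t v) = 0 := not_not.1 fun h => hc.2 (mem_scales_of_bump_ne h)
          exact hj (by simp [term, h1, h2])
      _ ≤ ∑ j ∈ scales (t u) ∪ scales (t v), term j :=
          Finset.sum_le_sum_of_subset_of_nonneg (fun j hj => (Finset.mem_filter.1 hj).2)
            fun j _ _ => hterm0 j
      _ ≤ ((scales (t u) ∪ scales (t v)).card : ℝ) * (|t u - t v| + l1d F u v) := by
          rw [← nsmul_eq_mul]; exact Finset.sum_le_card_nsmul _ _ _ fun j _ => hterm j
      _ ≤ 4 * (|t u - t v| + l1d F u v) := by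
          refine mul_le_mul_of_nonneg_right ?_ (add_nonneg (abs_nonneg _) (l1d_nonneg _ _ _))
          have h := (Finset.card_union_le (scales (t u)) (scales (t v))).trans
            (Nat.add_le_add (scales_card _) (scales_card _))
          exact_mod_cast h
  · rw [hΦ]
    have hz : ∀ j, term j = bump j (t u) := fun j => by
      dsimp only [term]
      rw [hv, bump_zero, sub_zero, min_eq_right (bump_nonneg _ _), zero_mul, add_zero,
        abs_of_nonneg (bump_nonneg _ _)]
    rw [Finset.sum_congr rfl fun j _ => hz j]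
    calc ∑ j ∈ J, bump j (t u) = ∑ j ∈ J with j ∈ scales (t u), bump j (t u) :=
          (Finset.sum_filter_of_ne fun j _ hj => mem_scales_of_bump_ne hj).symm
      _ ≤ ∑ j ∈ scales (t u), bump j (t u) :=
          Finset.sum_le_sum_of_subset_of_nonneg (fun j hj => (Finset.mem_filter.1 hj).2)
            fun j _ _ => bump_nonneg _ _
      _ ≤ ((scales (t u)).card : ℝ) * t u := by
          rw [← nsmul_eq_mul]
          refine Finset.sum_le_card_nsmul _ _ _ fun j _ => ?_
          have := bump_sub_le j (t u) 0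
          rwa [bump_zero, sub_zero, sub_zero, abs_of_nonneg (bump_nonneg _ _),
            abs_of_nonneg (ht u)] at this
      _ ≤ 4 * t u := by
          refine mul_le_mul_of_nonneg_right ?_ (ht u)
          exact_mod_cast (scales_card _).trans (by norm_num)
  · obtain ⟨j, hj, hb, hj2⟩ := exists_large_bump hu
    have hjJ : j ∈ J := Finset.mem_biUnion.2 ⟨u, Finset.mem_univ _, hj⟩
    rw [hΦ]
    refine le_trans ?_ (Finset.single_le_sum (fun i _ => hterm0 i) hjJ)
    have h1 : bump j (t u) * Z j ≤ term j := by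
      dsimp only [term]
      have := mul_le_mul_of_nonneg_left (hZ j).2.1 (abs_nonneg (bump j (t u) - bump j (t v)))
      rcases le_total (bump j (t u)) (bump j (t v)) with h | h
      · rw [min_eq_left h]
        linarith [abs_nonneg (bump j (t u) - bump j (t v))]
      · rw [min_eq_right h, abs_of_nonneg (sub_nonneg.2 h)] at *
        nlinarith
    refine le_trans ?_ h1
    refine le_trans ?_ (mul_le_mul_of_nonneg_right hb (hZ j).1)
    by_cases hone : ∃ a, B a u ≠ B a v ∧ (2 : ℝ) ^ j ≤ w a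
    · obtain ⟨a, ha, hwa⟩ := hone
      have hZ1 : Z j = 1 := by
        have : x j a = 1 := by
          dsimp only [x]
          rw [if_neg ha, min_eq_left ((one_le_div (by positivity)).2 hwa)]
        dsimp only [Z]
        rw [Finset.prod_eq_zero (Finset.mem_univ a) (by rw [this, sub_self]), sub_zero]
      rw [hZ1]
      linarith [min_le_left (t u) (l1d F u v)]
    · push Not at hone
      have hS : ∑ a, x j a = l1d F u v / (2 : ℝ) ^ j := by
        rw [hcut, Finset.sum_div]
        refine Finset.sum_congr rfl fun a _ => ?_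
        dsimp only [x]
        split_ifs with h
        · simp
        · rw [min_eq_right ((div_le_one (by positivity)).2 (hone a h).le)]
      obtain ⟨-, h2, h3, h4⟩ := one_sub_prod_le Finset.univ (x j) (fun a _ => (hx0 j a).1)
        (fun a _ => (hx0 j a).2)
      rw [hS] at h2
      have hs : (0 : ℝ) < (2 : ℝ) ^ j := by positivity
      have hD := l1d_nonneg F u v
      dsimp only [Z]
      set y := l1d F u v / (2 : ℝ) ^ j with hy
      set p := ∏ a, (1 - x j a) with hp
      have hyD : l1d F u v = y * (2 : ℝ) ^ j := by rw [hy, div_mul_cancel₀ _ hs.ne']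
      have hy0 : 0 ≤ y := div_nonneg hD hs.le
      have hm1 := min_le_left (t u) (l1d F u v)
      have hm2 := min_le_right (t u) (l1d F u v)
      have hm0 : 0 ≤ min (t u) (l1d F u v) := le_min hu.le hD
      -- with y ≤ 1 the parity differs with probability at least y / 2
      rcases le_total y 1 with hy1 | hy1
      · have : y / 2 ≤ 1 - p := by nlinarith
        nlinarith
      · have : 1 / 2 ≤ 1 - p := by nlinarith
        nlinarith

end Vale.Agent.P235Layer
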